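import Vale.Agent.P205.EulerZero
import Vale.Agent.P205.Torus.Assembly
import Vale.Agent.P205.Torus.FourierTorus
import Vale.Agent.P205.Torus.Fix
import Vale.Agent.P205.Torus.Conformal
import Vale.Agent.P205.Torus.FlatTorus
import Vale.Agent.P205.Torus.Isothermal
import Vale.Agent.P205.Klein.Assembly
import Vale.Agent.P205.Klein.Fix
import Vale.Agent.P205.Klein.Conformal
import Vale.Agent.P205.Klein.Link
import Vale.Agent.P205.Klein.Isothermal

/-!
P205: every smooth metric on the torus and on the Klein bottle immerses isometrically and smoothly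
in four-space.
-/

theorem Vale.Agent.Results.P205.EulerZero.result : Vale.Agent.P205.EulerZeroImmerses :=
  ⟨Vale.Agent.P205.Torus.everyTorus_of Vale.Agent.P205.Torus.fourierThm
      Vale.Agent.P205.Torus.fixThm Vale.Agent.P205.Torus.conformalThm
      Vale.Agent.P205.Torus.flatTorus Vale.Agent.P205.Iso.isothermal,
    Vale.Agent.P205.Klein.everyKlein_of Vale.Agent.P205.Torus.fourierThm
      Vale.Agent.P205.Klein.fixThm Vale.Agent.P205.Klein.conformalThm
      Vale.Agent.P205.Klein.linkThm Vale.Agent.P205.Klein.isothermal⟩
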